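import Vale.Agent.P092.UN.StT
import Mathlib.Analysis.InnerProductSpace.Subspace
import Mathlib.Analysis.Normed.Operator.LinearIsometry

/-!
P092: property (T) passes to extensions with a finite kernel.
-/

set_option autoImplicit false
set_option linter.all false

namespace Vale.Agent.P092LS

open Vale.Agent.P092.UN

theorem hasT_ext {Γ' Γ : Type} [Group Γ'] [Group Γ] (p : Γ' →* Γ) (hs : Function.Surjective p)
    [Finite p.ker] (h : HasT Γ) : HasT Γ' := by
  classical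
  obtain ⟨Q, κ, hκ, h⟩ := h
  haveI := Fintype.ofFinite p.ker
  choose l hl using hs
  refine ⟨Q.image l ∪ Finset.univ.image (Subtype.val : p.ker → Γ'), κ / (κ + 4), by positivity,
    fun H _ _ _ σ h1 h2 h3 h4 h5 v => ?_⟩
  by_contra hc
  push Not at hc
  let T : Γ' → H →ₗᵢ[ℂ] H := fun g => ⟨(h1 g).mk' _, h2 g⟩
  have hT : ∀ g v, σ g v = T g v := fun _ _ => rfl
  let W : Submodule ℂ H :=
    { carrier := {w | ∀ z : p.ker, T z w = w}
      add_mem' := fun a b z => by rw [map_add, a z, b z]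
      zero_mem' := fun z => map_zero _
      smul_mem' := fun c _ a z => by rw [map_smul, a z] }
  have hW : IsClosed (W : Set H) := by
    show IsClosed {w | ∀ z : p.ker, T z w = w}
    rw [Set.setOf_forall]
    exact isClosed_iInter fun z => isClosed_eq (T z).continuous continuous_id
  haveI := hW.completeSpace_coe
  have e1 : ∀ g g', p g = p g' → ∀ w ∈ W, σ g w = σ g' w := fun g g' e w a => by
    have := a ⟨g'⁻¹ * g, by simp [e]⟩
    rw [show g = g' * (g'⁻¹ * g) by group, h4, hT (g'⁻¹ * g), this]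
  have e2 : ∀ g, ∀ w ∈ W, σ g w ∈ W := fun g w a z => by
    rw [← hT, ← h4]
    exact e1 _ _ (by rw [map_mul, z.2, one_mul]) w a
  let c : ℝ := Fintype.card p.ker
  have c0 : 0 < c := Nat.cast_pos.2 Fintype.card_pos
  have hw : ((c⁻¹ : ℝ) : ℂ) • ∑ z : p.ker, σ z v ∈ W := W.smul_mem _ fun y => by
    rw [map_sum]
    exact Fintype.sum_equiv (Equiv.mulLeft y) _ _ fun z => (h4 _ _ _).symm
  obtain ⟨w, ew⟩ : ∃ w : W, w.1 = ((c⁻¹ : ℝ) : ℂ) • ∑ z : p.ker, σ z v := ⟨⟨_, hw⟩, rfl⟩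
  have n1 : ‖w.1 - v‖ ≤ κ / (κ + 4) * ‖v‖ := by
    have : w.1 - v = ((c⁻¹ : ℝ) : ℂ) • ∑ z : p.ker, (σ z v - v) := by
      rw [ew, Finset.sum_sub_distrib, smul_sub, Finset.sum_const, Finset.card_univ,
        ← Nat.cast_smul_eq_nsmul ℂ, smul_smul, show ((c⁻¹ : ℝ) : ℂ) * Fintype.card p.ker = 1 by
          rw [← Complex.ofReal_natCast, ← Complex.ofReal_mul, inv_mul_cancel₀ c0.ne',
            Complex.ofReal_one], one_smul]
    rw [this, norm_smul, Complex.norm_real, Real.norm_of_nonneg (inv_pos.2 c0).le,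
      inv_mul_le_iff₀ c0]
    refine (norm_sum_le _ _).trans ((Finset.sum_le_card_nsmul _ _ _ fun (z : p.ker) _ =>
      (hc z (Finset.mem_union_right _ (Finset.mem_image_of_mem _ (Finset.mem_univ z)))).le).trans_eq ?_)
    rw [Finset.card_univ, nsmul_eq_mul]
  obtain ⟨g, a, b⟩ := h W (fun g w => ⟨σ (l g) w, e2 _ _ w.2⟩)
    (fun g => ⟨fun a b => Subtype.ext (map_add (T (l g)) a.1 b.1),
      fun c a => Subtype.ext (map_smul (T (l g)) c a.1)⟩) (fun g w => h2 _ _)
    (fun w => Subtype.ext ((e1 _ 1 (by rw [hl, map_one]) _ w.2).trans (h3 _)))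
    (fun g g' w => Subtype.ext ((e1 _ (l g * l g') (by rw [map_mul, hl, hl, hl]) _ w.2).trans
      (h4 _ _ _)))
    (fun w a => Subtype.ext (h5 _ fun g => (e1 _ (l (p g)) (hl _).symm _ w.2).trans
      (congrArg Subtype.val (a (p g))))) w
  have n2 := hc (l g) (Finset.mem_union_left _ (Finset.mem_image_of_mem _ a))
  have n3 : ‖σ (l g) w - w‖ ≤ ‖w.1 - v‖ + ‖σ (l g) v - v‖ + ‖w.1 - v‖ := by
    rw [show σ (l g) w - w = T (l g) (w.1 - v) + (σ (l g) v - v) - (w.1 - v) by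
      rw [map_sub, ← hT, ← hT]; abel]
    exact (norm_sub_le _ _).trans (add_le_add_left ((norm_add_le _ _).trans_eq
      (by rw [(T _).norm_map])) _)
  have n4 : ‖v‖ ≤ ‖w.1‖ + ‖w.1 - v‖ := by
    conv_lhs => rw [show v = w.1 - (w.1 - v) by abel]
    exact norm_sub_le _ _
  have n5 : κ * ‖w.1‖ ≤ ‖σ (l g) w - w‖ := b
  have n6 : κ / (κ + 4) * ‖v‖ * (κ + 4) = κ * ‖v‖ := by field_simp
  have n7 := (norm_nonneg _).trans_lt n2
  nlinarith [mul_le_mul_of_nonneg_left n4 hκ.le, mul_le_mul_of_nonneg_left n1 hκ.le]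

end Vale.Agent.P092LS
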