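import Vale.Agent.P092LS.Res

/-!
P092, group package: restriction and transport, the topological part.
-/

set_option autoImplicit false
set_option linter.all false

namespace Vale.Agent.P092LS

open Matrix Vale.Agent.P183CH Vale.Agent.P092GP Vale.Agent.P092GP.LD Topology

section alg

variable {k G : Type} [Field k] [Group G] (L : LD k G)

/-- The diagonal matrices of the torus. -/
def dm (t : Fin L.R.r → k) : Matrix (Fin L.n) (Fin L.n) k :=
  diagonal fun a => ∏ j, t j ^ L.wt a j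

variable {L}

theorem dm_mul (t t' : Fin L.R.r → k) : dm L (t * t') = dm L t * dm L t' := by
  simp [dm, mul_zpow, Finset.prod_mul_distrib]

theorem dm_τ (H : L.Ok) (y : L.R.Q) (t : kˣ) : L.ρ (L.τ y t) = dm L fun j => (t : k) ^ y j := by
  rw [H.tor, dm]
  congr 1
  funext a
  have : ∀ s : Finset (Fin L.R.r), t ^ ∑ j ∈ s, L.wt a j * y j = ∏ j ∈ s, (t ^ y j) ^ L.wt a j :=
    fun s => by
      induction s using Finset.induction_on with
      | empty => simp
      | insert j s h ih =>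
        rw [Finset.sum_insert h, Finset.prod_insert h, _root_.zpow_add, ih, _root_.zpow_mul']
  rw [dotProduct, this]
  simp

theorem dm_S (H : L.Ok) {s : G} (h : s ∈ L.S) :
    ∃ t : Fin L.R.r → k, (∀ j, t j ≠ 0) ∧ L.ρ s = dm L t := by
  induction h using Subgroup.closure_induction with
  | mem s h =>
    obtain ⟨y, t, rfl⟩ := h
    exact ⟨_, fun j => zpow_ne_zero _ t.ne_zero, dm_τ H y t⟩
  | one => exact ⟨1, fun _ => one_ne_zero, by simp [dm]⟩
  | mul s s' _ _ a b =>
    obtain ⟨t, a, c⟩ := a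
    obtain ⟨t', b, d⟩ := b
    exact ⟨t * t', fun j => mul_ne_zero (a j) (b j), by rw [map_mul, c, d, dm_mul]⟩
  | inv s _ a =>
    obtain ⟨t, a, c⟩ := a
    refine ⟨t⁻¹, fun j => inv_ne_zero (a j), ?_⟩
    have : dm L t * dm L t⁻¹ = 1 := by
      rw [← dm_mul, show t * t⁻¹ = 1 from funext fun j => mul_inv_cancel₀ (a j)]
      simp [dm]
    rw [← mul_one (L.ρ s⁻¹), ← this, ← c, ← mul_assoc, rho_inv_mul, one_mul]

theorem exists_dm (H : L.Ok) {t : Fin L.R.r → k} (h : ∀ j, t j ≠ 0) :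
    ∃ s ∈ L.S, L.ρ s = dm L t := by
  have : ∀ F : Finset (Fin L.R.r), ∃ s ∈ L.S, L.ρ s = dm L fun j => if j ∈ F then t j else 1 :=
    fun F => by
      induction F using Finset.induction_on with
      | empty => exact ⟨1, one_mem _, by simp [dm]⟩
      | insert i F hi ih =>
        obtain ⟨s, a, b⟩ := ih
        refine ⟨L.τ (L.R.α i) (Units.mk0 _ (h i)) * s, mul_mem (τ_mem_S _ _) a, ?_⟩
        rw [map_mul, b, dm_τ H, ← dm_mul]
        congr 1
        funext j
        by_cases e : j = i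
        · simp [e, hi, RS.α]
        · simp [e, RS.α]
  simpa using this Finset.univ

end alg

variable {k G G' : Type} [NontriviallyNormedField k] [Group G] [Group G'] [TopologicalSpace G]
  [TopologicalSpace G'] {L : LD k G} {f : G' →* G} {M : ℕ}

theorem topGroup (H : L.Ok) (h : IsInducing L.ρ) : IsTopologicalGroup G where
  continuous_mul := h.continuous_iff.2 (by
    simp only [Function.comp_def, map_mul]
    exact (h.continuous.comp continuous_fst).mul (h.continuous.comp continuous_snd))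
  continuous_inv := h.continuous_iff.2 (by
    refine h.continuous.matrix_adjugate.congr fun g => ?_
    show _ = L.ρ g⁻¹
    rw [← mul_one (adjugate _), ← rho_mul_inv (ρ := L.ρ) g, ← mul_assoc, adjugate_mul, H.det,
      one_smul, one_mul])

/-- The torus is compact modulo its multiples. -/
theorem S_cpt (H : L.LP) (hM : 0 < M) : ∃ (C : Set G) (p : kˣ), IsCompact C ∧ C ⊆ L.S ∧
    ∀ s ∈ L.S, ∃ y : L.R.Q, ∃ c ∈ C, s = L.τ (M • y) p * c := by
  haveI := H.prop
  obtain ⟨p, hp⟩ := NormedField.exists_one_lt_norm k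
  have p0 : p ≠ 0 := norm_pos_iff.1 (one_pos.trans hp)
  let K : Set k := {x | 1 ≤ ‖x‖} ∩ Metric.closedBall 0 (‖p‖ ^ M)
  have hK : IsCompact K :=
    (isCompact_closedBall _ _).inter_left (isClosed_le continuous_const continuous_norm)
  have K0 : ∀ x ∈ K, x ≠ 0 := fun x h => norm_pos_iff.1 (one_pos.trans_le h.1)
  have h1 : ∀ X ∈ dm L '' Set.univ.pi fun _ => K, ∃ s ∈ L.S, L.ρ s = X := by
    rintro _ ⟨t, a, rfl⟩
    exact exists_dm H.ok fun j => K0 _ (a j trivial)
  refine ⟨L.ρ ⁻¹' (dm L '' Set.univ.pi fun _ => K), Units.mk0 p p0,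
    (H.emb.isInducing.isCompact_preimage_iff fun X a => ?_).2 ?_, fun g a => ?_, fun s a => ?_⟩
  · obtain ⟨s, -, b⟩ := h1 X a
    exact ⟨s, b⟩
  · refine (isCompact_univ_pi fun _ => hK).image_of_continuousOn ?_
    refine continuousOn_pi.2 fun a => continuousOn_pi.2 fun b => ?_
    simp only [dm, diagonal_apply]
    split_ifs
    · exact continuousOn_finset_prod _ fun j _ => (continuous_apply j).continuousOn.zpow₀ _
        fun t e => Or.inl (K0 _ (e j trivial))
    · exact continuousOn_const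
  · obtain ⟨s, b, c⟩ := h1 _ a
    exact H.ok.inj c ▸ b
  · obtain ⟨t, b, c⟩ := dm_S H.ok a
    have q : 1 < ‖p‖ ^ M := one_lt_pow₀ hp hM.ne'
    choose y hy using fun j => exists_mem_Ico_zpow (norm_pos_iff.2 (b j)) q
    have e : ∀ j, ‖p ^ (M • y) j‖ = (‖p‖ ^ M) ^ y j := fun j => by
      rw [norm_zpow, Pi.smul_apply, nsmul_eq_mul, _root_.zpow_mul, _root_.zpow_natCast]
    have e0 : ∀ j, 0 < (‖p‖ ^ M) ^ y j := fun j => zpow_pos (one_pos.trans q) _
    refine ⟨y, (L.τ (M • y) (Units.mk0 p p0))⁻¹ * s, ⟨fun j => (p ^ (M • y) j)⁻¹ * t j,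
      fun j _ => ⟨?_, ?_⟩, ?_⟩, by group⟩
    · show 1 ≤ ‖_‖
      rw [norm_mul, norm_inv, e, ← div_eq_inv_mul, one_le_div (e0 j)]
      exact (hy j).1
    · rw [mem_closedBall_zero_iff, norm_mul, norm_inv, e, ← div_eq_inv_mul, div_le_iff₀ (e0 j),
        mul_comm, ← zpow_add_one₀ (one_pos.trans q).ne']
      exact (hy j).2.le
    · rw [map_mul, ← H.ok.τ_neg, dm_τ H.ok, c, ← dm_mul]
      congr 1
      funext j
      simp

variable (hM : 0 < M) (hf : IsClosedEmbedding f) (hG : L.Gp ≤ f.range)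
  (hτ : ∀ y t, L.τ (M • y) t ∈ f.range)
include hM hf hG hτ

theorem res_lp (H : L.LP) : (L.res f M).LP where
  ok := res_ok hM H.ok hf.injective hG hτ
  prop := H.prop
  loc := H.loc
  emb := H.emb.comp hf.isEmbedding
  cpt := by
    haveI := topGroup H.ok H.emb.isInducing
    obtain ⟨C, a, b, c⟩ := H.cpt
    obtain ⟨C', p, a', b', c'⟩ := S_cpt H hM
    refine ⟨f ⁻¹' Set.image2 (· * ·) C' C, hf.isCompact_preimage (a'.mul a), ?_, fun z hz => ?_⟩
    · rw [res_Z0 hM]
      rintro g ⟨x, d, y, e, h⟩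
      show f g ∈ L.Z0
      exact h ▸ mul_mem (H.ok.S_le_Z0 (b' d)) (b e)
    · rw [res_Z0 hM] at hz
      obtain ⟨s, d, x, e, h⟩ := c _ hz
      obtain ⟨y, x', e', rfl⟩ := c' s d
      refine ⟨(L.res f M).τ y p, τ_mem_S _ _, ((L.res f M).τ y p)⁻¹ * z, ⟨x', e', x, e, ?_⟩, by group⟩
      rw [map_mul, map_inv, h, Function.invFun_eq (hτ y p)]
      group

theorem res_ls (H : L.LS) : (L.res f M).LS := by
  have e := res_Gp hM hf.injective hG
  have c : ∀ g : G', (∀ u ∈ (L.res f M).Gp, g * u = u * g) → ∀ u ∈ L.Gp, f g * u = u * f g := by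
    intro g a u b
    obtain ⟨u, rfl⟩ := hG b
    rw [← map_mul, a u (e.ge b), map_mul]
  refine ⟨res_lp hM hf hG hτ H.lp, e ▸ H.closed.preimage hf.continuous,
    (H.cfin.preimage hf.injective.injOn).subset c, fun g a => Subgroup.mem_center_iff.2 fun x =>
      hf.injective ?_, fun Γ _ hΓ φ => ?_⟩
  · rw [map_mul, map_mul]
    exact Subgroup.mem_center_iff.1 (H.cent _ (c g a)) _
  · rw [e, Subgroup.comap_comap]
    exact H.quo Γ hΓ _

omit hM hτ in
/-- Restriction along a closed embedding whose image contains `Gp`. -/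
theorem ls_emb (H : L.LS) : ∃ L' : LD k G', L'.LS ∧ L'.R = L.R ∧ L'.Gp = L.Gp.comap f :=
  have hM : 0 < L.R.A.det.natAbs := Int.natAbs_pos.2 H.lp.ok.root.det
  ⟨L.res f _, res_ls hM hf hG (fun y t => hG (H.lp.ok.τ_mem_Gp y t)) H, rfl,
    res_Gp hM hf.injective hG⟩

omit hM hτ hf hG

/-- (a): closed subgroups over `Gp`. -/
theorem ls_sub (H : L.LS) {K : Subgroup G} (h : L.Gp ≤ K) (hK : IsClosed (K : Set G)) :
    ∃ L' : LD k K, L'.LS ∧ L'.R = L.R ∧ L'.Gp = L.Gp.subgroupOf K :=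
  ls_emb (f := K.subtype) hK.isClosedEmbedding_subtypeVal (by rwa [K.range_subtype]) H

/-- (c): transport along an isomorphism. -/
theorem ls_iso (H : L.LS) (e : G' ≃* G) (he : IsHomeomorph e) :
    ∃ L' : LD k G', L'.LS ∧ L'.R = L.R ∧ L'.Gp = L.Gp.comap e.toMonoidHom :=
  ls_emb (f := e.toMonoidHom) he.isClosedEmbedding (fun g _ => e.surjective g) H

end Vale.Agent.P092LS
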