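import Vale.Agent.P092LS.Quo
import Vale.Agent.P092LS.Ext
import Vale.Agent.P092LS.ResT
import Vale.Agent.P092GP.Top
import Mathlib.Topology.Algebra.Group.OpenMapping

/-!
P092, group package: the package on the quotient by the centre.
-/

set_option autoImplicit false
set_option linter.all false

namespace Vale.Agent.P092LS

open Matrix Vale.Agent.P183CH Vale.Agent.P092GP Vale.Agent.P092GP.LD Topology

variable {k G G' : Type} [NontriviallyNormedField k] [Group G] [Group G'] [TopologicalSpace G]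
  {L : LD k G} {D : RD L} {p : G →* G'} {ρ : G' →* Matrix (Fin D.n) (Fin D.n) k}

theorem exists_rd (H : L.LP) : ∃ D : RD L, D.Ok ∧ (∀ g, (D.σ g).det = 1) ∧ Continuous D.σ := by
  haveI := H.top
  obtain ⟨D, h, B, ψ, e⟩ := exists_ad H.ok
  have c := H.cont
  have c1 : Continuous D.σ := continuous_matrix fun a b => by
    simp only [e, pa]
    exact continuous_finset_sum _ fun x _ => continuous_finset_sum _ fun y _ => continuous_const.mul
      (((c.matrix_mul continuous_const).matrix_mul (c.comp continuous_inv)).matrix_elem x y)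
  exact ⟨D.ex, h.ex H.ok, D.ex_det, continuous_matrix (exm_ind (n := D.n)
    (c1.comp continuous_inv).matrix_det (fun _ => continuous_const) (fun _ => continuous_const)
    c1.matrix_elem)⟩

theorem quo_lp [TopologicalSpace G'] (h : D.Ok) (H : L.LP) (hs : Function.Surjective p)
    (hk : p.ker = Subgroup.center G) (hρ : ∀ g, ρ (p g) = D.σ g) (hd : ∀ g, (D.σ g).det = 1)
    (hc : Continuous p) (he : IsInducing ρ) : (D.quo p ρ).LP := by
  have H' := quo_ok h H.ok hs hk hρ hd
  obtain ⟨C, a, b, c⟩ := H.cpt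
  refine ⟨H', H.prop, H.loc, ⟨he, H'.inj⟩, p '' C, a.image hc, ?_, fun g e => ?_⟩
  · rintro _ ⟨z, d, rfl⟩
    exact quo_Z0 h hρ (b d)
  · obtain ⟨g, rfl⟩ := hs g
    obtain ⟨u, d, n, w, q, r, v, f, rfl⟩ := H.ok.bruhat0 g
    have r' := quo_rep h hρ r
    have d' : p u ∈ (D.quo p ρ).Up := quo_UD h hρ d
    have f' : p v ∈ (D.quo p ρ).Up := quo_UD h hρ f
    have e1 := H'.cell_eq r' (rep_one.2 e) q (one_mem _) (Up_le_B d') (Up_le_B f') (by simp)
    subst e1
    have e2 := H'.cell_eq' r' (rep_one.2 e) (one_mem _) (one_mem _) d' f' (by simp)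
    obtain ⟨s, a1, x, a2, rfl⟩ := c n (rep_one.1 r)
    refine ⟨p s, ?_, p x, ⟨x, a2, rfl⟩, e2.trans (map_mul _ _ _)⟩
    have : L.S.map p ≤ (D.quo p ρ).S := by
      rw [S, MonoidHom.map_closure]
      refine Subgroup.closure_mono ?_
      rintro _ ⟨_, ⟨y, t, rfl⟩, rfl⟩
      exact ⟨y, t, rfl⟩
    exact this ⟨s, a1, rfl⟩

/-- (b): the quotient by the centre. -/
theorem ls_quo [t : TopologicalSpace G'] (H : L.LS) (hp : IsQuotientMap p)
    (hk : p.ker = Subgroup.center G) : ∃ L' : LD k G', L'.LS ∧ L'.R = L.R ∧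
      L'.Gp = L.Gp.map p ∧ (∀ g, (∀ u ∈ L'.Gp, g * u = u * g) → g = 1) ∧
        Subgroup.center G' = ⊥ := by
  haveI := H.lp.top
  haveI := H.lp.lc
  haveI := H.lp.sc
  have hs := hp.surjective
  obtain ⟨D, h, hd, hc⟩ := exists_rd H.lp
  have h1 : ∀ g, D.σ (Function.surjInv hs (p g)) = D.σ g := fun g => by
    have : g⁻¹ * Function.surjInv hs (p g) ∈ p.ker := by
      simp [MonoidHom.mem_ker, Function.surjInv_eq]
    rw [← mul_inv_cancel_left g (Function.surjInv hs _), map_mul, (h.ker _).2 (hk.le this), mul_one]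
  let ρ : G' →* Matrix (Fin D.n) (Fin D.n) k :=
    { toFun := fun g => D.σ (Function.surjInv hs g)
      map_one' := by rw [← p.map_one, h1, map_one]
      map_mul' := hs.forall₂.2 fun g g' => by rw [← p.map_mul, h1, h1, h1, map_mul] }
  have hρ : ∀ g, ρ (p g) = D.σ g := h1
  have h2 : t = TopologicalSpace.induced ρ inferInstance := by
    rw [hp.eq_coinduced]
    clear hp
    clear t
    letI : TopologicalSpace G' := TopologicalSpace.induced ρ inferInstance
    have c : Continuous p := continuous_induced_rng.2 (hc.congr fun g => (hρ g).symm)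
    have H' := quo_lp h H.lp hs hk hρ hd c ⟨rfl⟩
    haveI := H'.top
    haveI := H'.lc
    haveI := H'.t2
    exact ((p.isOpenMap_of_sigmaCompact hs c).isQuotientMap c hs).eq_coinduced.symm
  have e := quo_Gp h H.lp.ok hs hk hρ
  have hf : (p.ker : Set G).Finite := H.cfin.subset fun z a u _ =>
    (Subgroup.mem_center_iff.1 (hk.le a) u).symm
  have h3 : ∀ g, (∀ u ∈ (D.quo p ρ).Gp, g * u = u * g) → g = 1 := hs.forall.2 fun g a =>
    hk.ge (H.cent g (cent_lift H.lp.ok hk fun u b => a _ (e.ge ⟨u, b, rfl⟩)))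
  refine ⟨D.quo p ρ, ⟨quo_lp h H.lp hs hk hρ hd hp.continuous ⟨h2⟩, ?_,
    (Set.finite_singleton 1).subset h3, fun g a => h3 g a ▸ one_mem _, fun Γ _ hΓ φ => ?_⟩, rfl, e,
    h3, eq_bot_iff.2 fun g a => h3 g fun u _ => (Subgroup.mem_center_iff.1 a u).symm⟩
  · rw [← hp.isClosed_preimage, e, ← Subgroup.coe_comap, Subgroup.comap_map_eq, Subgroup.mul_normal]
    exact H.closed.mul_right_of_isCompact hf.isCompact
  · let P : Subgroup (Γ × G) := (φ.comp (MonoidHom.fst Γ G)).eqLocus (p.comp (MonoidHom.snd Γ G))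
    let q : P →* Γ := (MonoidHom.fst Γ G).comp P.subtype
    have s : Function.Surjective q := fun x => by
      obtain ⟨g, a⟩ := hs (φ x)
      exact ⟨⟨(x, g), a.symm⟩, rfl⟩
    haveI := hf.to_subtype
    haveI : Finite q.ker := Finite.of_injective (fun x => (⟨x.1.1.2, by
      have a : φ x.1.1.1 = p x.1.1.2 := x.1.2
      rw [show x.1.1.1 = 1 from x.2, map_one] at a
      exact a.symm⟩ : (p.ker : Set G))) fun x y a => Subtype.ext (Subtype.ext (Prod.ext
        ((show x.1.1.1 = 1 from x.2).trans (show y.1.1.1 = 1 from y.2).symm) (congrArg Subtype.val a)))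
    have i := H.quo P (hasT_ext q s hΓ) ((MonoidHom.snd Γ G).comp P.subtype)
    haveI : (((D.quo p ρ).Gp.comap φ).comap q).FiniteIndex := Subgroup.finiteIndex_of_le
      (H := L.Gp.comap ((MonoidHom.snd Γ G).comp P.subtype)) fun x a => e.ge ⟨_, a, x.2.symm⟩
    exact ⟨Subgroup.index_comap_of_surjective _ s ▸ this.index_ne_zero⟩

/-- (b) for the quotient group. -/
theorem ls_center (H : L.LS) : ∃ L' : LD k (G ⧸ Subgroup.center G), L'.LS ∧ L'.R = L.R ∧
    L'.Gp = L.Gp.map (QuotientGroup.mk' _) ∧ (∀ g, (∀ u ∈ L'.Gp, g * u = u * g) → g = 1) ∧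
      Subgroup.center (G ⧸ Subgroup.center G) = ⊥ :=
  ls_quo H (QuotientGroup.isQuotientMap_mk _) (QuotientGroup.ker_mk' _)

end Vale.Agent.P092LS
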