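import Vale.Agent.P092GP.Bru

/-!
P092, group package: a graded polynomial representation whose kernel is the centre.
-/

set_option autoImplicit false
set_option linter.all false

namespace Vale.Agent.P092LS

open Matrix Vale.Agent.P183CH Vale.Agent.P092GP Vale.Agent.P092GP.LD MvPolynomial

variable {k G : Type} [Field k] [Group G] {L : LD k G}

variable (L) in
/-- A second representation. -/
structure RD where
  n : ℕ
  σ : G →* Matrix (Fin n) (Fin n) k
  w : Fin n → L.R.Q
  e : Matrix (Fin n) (Fin n) (MvPolynomial (Fin L.m) k)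
  l : Fin L.m → Matrix (Fin n) (Fin n) k

/-- It is compatible with the package, and its kernel is the centre. -/
structure RD.Ok (D : RD L) : Prop where
  ty : ∀ g (w : L.R.Aut), L.Rep g w → Ty D.w w (D.σ g)
  ud : ∀ F g, g ∈ UD L.wt L.ρ F → g ∈ UD D.w D.σ F
  tor : ∀ h t, D.σ (L.τ h t) = diagonal fun a => ((t ^ (D.w a ⬝ᵥ h) : kˣ) : k)
  e_hom : ∀ a b, (D.e a b).IsWeightedHomogeneous L.dg (D.w a - D.w b)
  x_eq : ∀ s, D.σ (L.x s) = D.e.map (eval s)
  l_hom : ∀ j, Sup D.w {L.dg j} (D.l j)
  co_x : ∀ s j, ∑ a, ∑ b, D.l j a b * D.σ (L.x s) a b = s j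
  ker : ∀ g, D.σ g = 1 ↔ g ∈ Subgroup.center G

section lin

variable {Q : Type} [AddCommGroup Q] {n : ℕ} {wt : Fin n → Q} {μ : Q}
  {A B M Z : Matrix (Fin n) (Fin n) k}

/-- The pairing of two matrices. -/
def pa (A M : Matrix (Fin n) (Fin n) k) : k := ∑ a, ∑ b, A a b * M a b

/-- The pairing as a linear form. -/
def paL (A : Matrix (Fin n) (Fin n) k) : Matrix (Fin n) (Fin n) k →ₗ[k] k where
  toFun := pa A
  map_add' M M' := by simp [pa, mul_add, Finset.sum_add_distrib]
  map_smul' c M := by simp [pa, Finset.mul_sum, mul_left_comm]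

theorem paL_apply : paL A M = pa A M := rfl

theorem pa_eq_zero {D : Set Q} (h : Sup wt {μ} A) (h' : Sup wt D M) (e : μ ∉ D) : pa A M = 0 :=
  Finset.sum_eq_zero fun a _ => Finset.sum_eq_zero fun b _ => by
    by_cases c : wt a - wt b = μ
    · rw [h' a b (c ▸ e), mul_zero]
    · rw [h a b c, zero_mul]

open Classical in
variable (wt μ) in
/-- The homogeneous component. -/
noncomputable def cp : Matrix (Fin n) (Fin n) k →ₗ[k] Matrix (Fin n) (Fin n) k where
  toFun M := Matrix.of fun a b => if wt a - wt b = μ then M a b else 0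
  map_add' M M' := by ext a b; simp only [of_apply, Matrix.add_apply]; split_ifs <;> simp
  map_smul' c M := by ext a b; simp

open Classical in
theorem cp_apply (a b : Fin n) : cp wt μ M a b = if wt a - wt b = μ then M a b else 0 := rfl

theorem sup_cp : Sup wt {μ} (cp wt μ M) := fun a b c => if_neg c

theorem cp_eq (h : Sup wt {μ} M) : cp wt μ M = M := by
  ext a b
  rw [cp_apply]
  split_ifs with c
  · rfl
  · exact (h a b c).symm

theorem cp_ne {ν : Q} (h : Sup wt {ν} M) (e : ν ≠ μ) : cp wt μ M = 0 := by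
  ext a b
  rw [cp_apply]
  split_ifs with c
  · exact h a b fun d => e (d.symm.trans c)
  · rfl

theorem pa_cp : pa (cp wt μ A) M = pa A (cp wt μ M) := by
  simp only [pa, cp_apply, ite_mul, mul_ite, zero_mul, mul_zero]

theorem cp_comm (h : Sup wt {0} Z) (e : Z * M = M * Z) : Z * cp wt μ M = cp wt μ M * Z := by
  ext a b
  have h1 : ∀ a b, Z a b = 0 ∨ wt a = wt b := fun a b =>
    or_iff_not_imp_right.2 fun c => h a b fun d => c (sub_eq_zero.1 d)
  trans cp wt μ (Z * M) a b
  · simp only [cp_apply, mul_apply]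
    split_ifs with c
    · exact Finset.sum_congr rfl fun j _ => (h1 a j).elim (fun d => by simp [d])
        fun d => by rw [if_pos (d ▸ c)]
    · exact Finset.sum_eq_zero fun j _ => (h1 a j).elim (fun d => by simp [d])
        fun d => by rw [if_neg (d ▸ c), mul_zero]
  · simp only [e, cp_apply, mul_apply]
    split_ifs with c
    · exact Finset.sum_congr rfl fun j _ => (h1 j b).elim (fun d => by simp [d])
        fun d => by rw [if_pos (d ▸ c)]
    · exact (Finset.sum_eq_zero fun j _ => (h1 j b).elim (fun d => by simp [d])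
        fun d => by rw [if_neg (d ▸ c), zero_mul]).symm

/-- A graded subspace has a homogeneous basis. -/
theorem exists_basis (C : Submodule k (Matrix (Fin n) (Fin n) k))
    (hC : ∀ μ, ∀ M ∈ C, cp wt μ M ∈ C) :
    ∃ (m : ℕ) (B ψ : Fin m → Matrix (Fin n) (Fin n) k) (w : Fin m → Q), (∀ a, B a ∈ C) ∧
      (∀ a, Sup wt {w a} (B a)) ∧ (∀ a, Sup wt {w a} (ψ a)) ∧
      (∀ M ∈ C, M = ∑ a, pa (ψ a) M • B a) ∧ ∀ a b, pa (ψ a) (B b) = (1 : Matrix _ _ k) a b := by
  classical
  obtain ⟨s, h1, h2, h3⟩ := exists_linearIndependent k {M | M ∈ C ∧ ∃ μ, Sup wt {μ} M}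
  haveI : Finite s := h3.finite
  obtain ⟨m, ⟨ε⟩⟩ := Finite.exists_equiv_fin s
  let B : Fin m → Matrix (Fin n) (Fin n) k := fun a => (ε.symm a).1
  have hB : LinearIndependent k B := h3.comp _ ε.symm.injective
  choose w hw using fun a => (h1 (ε.symm a).2).2
  have h4 : ∀ M ∈ C, ∃ c : Fin m → k, ∑ a, c a • B a = M := fun M hM => by
    refine (Submodule.mem_span_range_iff_exists_fun k).1 ?_
    rw [show Set.range B = s from (ε.symm.surjective.range_comp Subtype.val).trans
      Subtype.range_val, h2, show M = ∑ μ ∈ Finset.univ.image fun p : Fin n × Fin n =>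
        wt p.1 - wt p.2, cp wt μ M by
          ext a b
          simp only [Matrix.sum_apply, cp_apply, Finset.sum_ite_eq]
          exact (if_pos (Finset.mem_image_of_mem _ (Finset.mem_univ (a, b)))).symm]
    exact Submodule.sum_mem _ fun μ _ => Submodule.subset_span ⟨hC μ M hM, μ, sup_cp⟩
  obtain ⟨g, hg⟩ := (Fintype.linearCombination k B).exists_leftInverse_of_injective
    (LinearMap.ker_eq_bot.2 hB.fintypeLinearCombination_injective)
  have h5 : ∀ a b, pa (cp wt (w a) (Matrix.of fun c d => g (single c d 1) a)) (B b) =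
      (1 : Matrix _ _ k) a b := fun a b => by
    have e : ∀ M, pa (Matrix.of fun c d => g (single c d 1) a) M = g M a := fun M => by
      conv_rhs => rw [matrix_eq_sum_single M]
      simp only [pa, map_sum, Finset.sum_apply, of_apply]
      refine Finset.sum_congr rfl fun c _ => Finset.sum_congr rfl fun d _ => ?_
      rw [mul_comm, ← smul_eq_mul, ← Pi.smul_apply, ← map_smul, smul_single, smul_eq_mul, mul_one]
    rw [pa_cp, e]
    by_cases c : w b = w a
    · have := LinearMap.congr_fun hg (Pi.single b 1)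
      rw [LinearMap.comp_apply, Fintype.linearCombination_apply_single, one_smul] at this
      rw [← c, cp_eq (hw b), this, LinearMap.id_apply, Pi.single_apply, one_apply]
    · rw [cp_ne (hw b) c, map_zero, one_apply_ne fun e : a = b => c (e ▸ rfl), Pi.zero_apply]
  refine ⟨m, B, _, w, fun a => (h1 (ε.symm a).2).1, hw, fun a => sup_cp, fun M hM => ?_, h5⟩
  obtain ⟨c, rfl⟩ := h4 M hM
  refine Finset.sum_congr rfl fun a _ => ?_
  congr 1
  show _ = paL _ _
  rw [map_sum]
  simp only [map_smul, paL_apply, h5]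
  simp [one_apply]

theorem hom_det {σ ι : Type} [Fintype ι] [DecidableEq ι] {d : σ → Q} {p q : ι → Q}
    {E : Matrix ι ι (MvPolynomial σ k)} (h : ∀ a b, (E a b).IsWeightedHomogeneous d (p a - q b)) :
    E.det.IsWeightedHomogeneous d (∑ a, p a - ∑ a, q a) := by
  rw [det_apply]
  refine IsWeightedHomogeneous.sum _ _ _ fun s _ => ?_
  rw [← mem_weightedHomogeneousSubmodule, Units.smul_def]
  refine zsmul_mem ?_ _
  rw [mem_weightedHomogeneousSubmodule, ← Equiv.sum_comp s p, ← Finset.sum_sub_distrib]
  exact IsWeightedHomogeneous.prod _ _ _ fun a _ => h _ _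

theorem hom_adj {σ : Type} {d : σ → Q} {E : Matrix (Fin n) (Fin n) (MvPolynomial σ k)}
    (h : ∀ a b, (E a b).IsWeightedHomogeneous d (wt a - wt b)) (a b : Fin n) :
    (E.adjugate a b).IsWeightedHomogeneous d (wt a - wt b) := by
  have := hom_det (E := E.updateRow b (Pi.single a 1)) (d := d) (p := Function.update wt b (wt a))
    (q := wt) fun x y => by
      by_cases c : x = b
      · rw [c, updateRow_self, Function.update_self]
        by_cases e : y = a
        · rw [e, Pi.single_eq_same, sub_self]
          exact isWeightedHomogeneous_one _ _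
        · rw [Pi.single_eq_of_ne e]
          exact isWeightedHomogeneous_zero _ _ _
      · rw [updateRow_ne c, Function.update_of_ne c]
        exact h x y
  rwa [Finset.sum_update_of_mem (Finset.mem_univ _), ← Finset.add_sum_erase _ wt (Finset.mem_univ b),
    Finset.sdiff_singleton_eq_erase, add_sub_add_right_eq_sub, ← adjugate_apply] at this

end lin

end Vale.Agent.P092LS
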