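import Vale.Agent.P092LS.Ad

/-!
P092, group package: the adjoint action on the centraliser of the centre.
-/

set_option autoImplicit false
set_option linter.all false

namespace Vale.Agent.P092LS

open Matrix Vale.Agent.P183CH Vale.Agent.P092GP Vale.Agent.P092GP.LD MvPolynomial

variable {k G : Type} [Field k] [Group G] {L : LD k G}

theorem center_le (H : L.Ok) : Subgroup.center G ≤ L.Z0 := fun z hz => by
  have c := Subgroup.mem_center_iff.1 hz
  have h1 : z ∈ L.B := H.mem_B_of_conj fun u a => by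
    rw [← c, mul_inv_cancel_right]
    exact Up_le_B a
  obtain ⟨w, a, n, -, b⟩ := H.exists_n0
  have h2 := b.conj_PD (E := dNn _) (E' := dNp _) h1 fun x d =>
    (eq_or_lt_of_le (mem_dNn.1 d)).elim (fun e => by rw [← e, map_zero]; exact zero_mem _)
      fun e => (map_lt_zero H.root a e).le
  rw [c, mul_inv_cancel_right] at h2
  exact B_inf_Bm.le ⟨h1, h2⟩

variable (L) in
/-- The matrices which commute with the centre. -/
def cen : Submodule k (Matrix (Fin L.n) (Fin L.n) k) where
  carrier := {M | ∀ z ∈ Subgroup.center G, L.ρ z * M = M * L.ρ z}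
  add_mem' := fun a b z h => by rw [mul_add, add_mul, a z h, b z h]
  zero_mem' := fun z _ => by rw [mul_zero, zero_mul]
  smul_mem' := fun c _ a z h => by rw [mul_smul_comm, smul_mul_assoc, a z h]

theorem rho_cen (g : G) : L.ρ g ∈ cen L := fun z h => by
  rw [← map_mul, ← map_mul, Subgroup.mem_center_iff.1 h]

theorem mul_cen {A B : Matrix (Fin L.n) (Fin L.n) k} (a : A ∈ cen L) (b : B ∈ cen L) :
    A * B ∈ cen L := fun z h => by rw [← mul_assoc, a z h, mul_assoc, b z h, mul_assoc]

open Classical in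
variable (L) in
/-- The projection on a weight space. -/
noncomputable def pj (μ : L.R.Q) : Matrix (Fin L.n) (Fin L.n) k :=
  diagonal fun a => if L.wt a = μ then 1 else 0

theorem pj_cen (H : L.Ok) (μ : L.R.Q) : pj L μ ∈ cen L := fun z h => by
  ext a b
  rw [pj, mul_diagonal, diagonal_mul]
  by_cases c : L.wt a = L.wt b
  · rw [c, mul_comm]
  · rw [mem_Z0.1 (center_le H h) a b c, zero_mul, mul_zero]

theorem pj_up {u : G} (h : u ∈ L.Up) (a b : Fin L.n) :
    (L.ρ u * pj L (L.wt b) * L.ρ u⁻¹) a b = L.ρ u a b := by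
  have : ∀ c, (pj L (L.wt b) * L.ρ u⁻¹) c b = (1 : Matrix _ _ k) c b := fun c => by
    rw [pj, diagonal_mul]
    split_ifs with e
    · rw [one_mul, ← sub_eq_zero]
      exact inv_mem h c b (by rw [e, sub_self]; exact lt_irrefl (0 : L.R.Q))
    · rw [zero_mul, one_apply_ne fun d : c = b => e (d ▸ rfl)]
  rw [mul_assoc, mul_apply]
  simp only [this]
  rw [← mul_apply, mul_one]

theorem sum_sw {ι κ : Type} [Fintype ι] [Fintype κ] (f : ι → ι → κ → κ → k) :
    ∑ a, ∑ b, ∑ c, ∑ d, f a b c d = ∑ c, ∑ d, ∑ b, ∑ a, f a b c d :=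
  calc _ = ∑ p : ι × ι, ∑ q : κ × κ, f p.2 p.1 q.1 q.2 := by
        rw [Finset.sum_comm]; simp only [Fintype.sum_prod_type]
    _ = ∑ q : κ × κ, ∑ p : ι × ι, f p.2 p.1 q.1 q.2 := Finset.sum_comm
    _ = _ := by simp only [Fintype.sum_prod_type]

theorem exists_ad (H : L.Ok) : ∃ D : RD L, D.Ok ∧
    ∃ B ψ : Fin D.n → Matrix (Fin L.n) (Fin L.n) k, ∀ g a b,
      D.σ g a b = pa (ψ a) (L.ρ g * B b * L.ρ g⁻¹) := by
  obtain ⟨m, B, ψ, w, h1, h2, h3, h4, h5⟩ := exists_basis (wt := L.wt) (cen L) fun μ M a z b =>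
    cp_comm (center_le H b) (a z b)
  let s : G → Matrix (Fin m) (Fin m) k := fun g => of fun a b => pa (ψ a) (L.ρ g * B b * L.ρ g⁻¹)
  have hs : ∀ g a b, s g a b = pa (ψ a) (L.ρ g * B b * L.ρ g⁻¹) := fun _ _ _ => rfl
  have h6 : ∀ g b, L.ρ g * B b * L.ρ g⁻¹ = ∑ a, s g a b • B a := fun g b =>
    h4 _ (mul_cen (mul_cen (rho_cen g) (h1 b)) (rho_cen _))
  have h7 : ∀ g, ∀ M ∈ cen L, L.ρ g * M * L.ρ g⁻¹ = ∑ b, ∑ a, (pa (ψ b) M * s g a b) • B a :=
    fun g M a => by
      conv_lhs => rw [h4 M a]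
      simp only [Finset.mul_sum, Finset.sum_mul, mul_smul_comm, smul_mul_assoc, h6, Finset.smul_sum,
        smul_smul]
  let σ : G →* Matrix (Fin m) (Fin m) k :=
    { toFun := s
      map_one' := by ext a b; rw [hs, inv_one, map_one, one_mul, mul_one, h5]
      map_mul' := fun g g' => by
        ext a b
        rw [hs, _root_.mul_inv_rev, map_mul, map_mul, show L.ρ g * L.ρ g' * B b * (L.ρ g'⁻¹ * L.ρ g⁻¹) =
          L.ρ g * (L.ρ g' * B b * L.ρ g'⁻¹) * L.ρ g⁻¹ by simp only [mul_assoc], h6 g', mul_apply,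
          ← paL_apply]
        simp only [Finset.mul_sum, Finset.sum_mul, mul_smul_comm, smul_mul_assoc, map_sum, map_smul,
          paL_apply, ← hs, smul_eq_mul, mul_comm] }
  refine ⟨⟨m, σ, w, of fun a b => ∑ c, ∑ d, C (ψ a c d) * (L.e * (B b).map C * L.e.adjugate : Matrix _ _ _) c d,
    fun j => of fun a b => ∑ c, ∑ d, L.l j c d * B a c d * pa (ψ b) (pj L (L.wt d))⟩,
    ⟨fun g v r a b c => ?_, fun F g r a b c => ?_, fun y t => ?_, fun a b => ?_, fun x => ?_,
      fun j a b c => ?_, fun x j => ?_, fun g => ⟨fun e => ?_, fun e => ?_⟩⟩, B, ψ, hs⟩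
  · exact pa_eq_zero (h3 a) (Ty.conj (f := v.toAddEquiv.toAddMonoidHom) (D' := {v (w b)}) r r.inv
      v.apply_symm_apply (h2 b) fun x e => congrArg v e) c
  · show s g a b - _ = 0
    rw [hs, ← h5, ← paL_apply, ← paL_apply, ← map_sub, show L.ρ g * B b * L.ρ g⁻¹ - B b =
      (L.ρ g - 1) * B b * (L.ρ g⁻¹ - 1) + (L.ρ g - 1) * B b + B b * (L.ρ g⁻¹ - 1) by noncomm_ring]
    have p : Sup L.wt {μ | μ - w b ∈ F} ((L.ρ g - 1) * B b) :=
      Sup.mul r (h2 b) fun x d y e => by simpa [show y = w b from e] using d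
    refine pa_eq_zero (D := {μ | μ - w b ∈ F}) (h3 a) (((p.mul (inv_mem r) fun x d y e => ?_).add p).add
      ((h2 b).mul (inv_mem r) fun x d y e => ?_)) c
    · simpa [add_sub_right_comm] using F.add_mem d e
    · simpa [show x = w b from d] using e
  · ext a b
    have : L.ρ (L.τ y t) * B b * L.ρ (L.τ y t)⁻¹ = ((t ^ (w b ⬝ᵥ y) : kˣ) : k) • B b := by
      ext c d
      rw [← H.τ_neg, H.tor, H.tor, mul_diagonal, diagonal_mul, Matrix.smul_apply, smul_eq_mul]
      by_cases e : L.wt c - L.wt d = w b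
      · rw [mul_right_comm, ← Units.val_mul, ← _root_.zpow_add, ← e, sub_dotProduct, dotProduct_neg,
          sub_eq_add_neg]
      · rw [h2 b c d e, mul_zero, mul_zero, zero_mul]
    show s _ a b = _
    rw [hs, this, ← paL_apply, map_smul, paL_apply, h5, diagonal_apply, one_apply]
    split_ifs with e
    · rw [e, smul_eq_mul, mul_one]
    · rw [smul_zero]
  · simp only [of_apply]
    refine IsWeightedHomogeneous.sum _ _ _ fun c _ => IsWeightedHomogeneous.sum _ _ _ fun d _ => ?_
    by_cases e : L.wt c - L.wt d = w a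
    · refine IsWeightedHomogeneous.C_mul ?_ _
      simp only [mul_apply, Finset.sum_mul]
      refine IsWeightedHomogeneous.sum _ _ _ fun y _ => IsWeightedHomogeneous.sum _ _ _ fun x _ => ?_
      by_cases f : L.wt x - L.wt y = w b
      · have := ((H.e_hom c x).mul (isWeightedHomogeneous_C L.dg (B b x y))).mul (hom_adj H.e_hom y d)
        rwa [show L.wt c - L.wt x + 0 + (L.wt y - L.wt d) = w a - w b by rw [← e, ← f]; abel] at this
      · rw [map_apply, h2 b x y f, C_0, mul_zero, zero_mul]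
        exact isWeightedHomogeneous_zero _ _ _
    · rw [h3 a c d e, C_0, zero_mul]
      exact isWeightedHomogeneous_zero _ _ _
  · ext a b
    have : L.ρ (L.x x)⁻¹ = (L.e.adjugate).map (eval x) := by
      rw [← RingHom.mapMatrix_apply, RingHom.map_adjugate, RingHom.mapMatrix_apply, ← H.x_eq,
        ← mul_one (adjugate _), ← rho_mul_inv (ρ := L.ρ) (L.x x), ← mul_assoc, adjugate_mul, H.det,
        one_smul, one_mul]
    show s _ a b = _
    rw [hs, this, H.x_eq]
    simp [pa, mul_apply]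
  · simp only [of_apply]
    refine Finset.sum_eq_zero fun x _ => Finset.sum_eq_zero fun y _ => ?_
    by_cases e : L.wt x - L.wt y = L.dg j
    · by_cases f : L.wt x - L.wt y = w a
      · rw [pa_eq_zero (M := pj L _) (h3 b) (Sup.diagonal (Set.mem_singleton 0) _) fun d => c (show
          w a - w b = _ by rw [show w b = 0 from d, sub_zero, ← f, e]), mul_zero]
      · rw [h2 a x y f, mul_zero, zero_mul]
    · rw [H.l_hom j x y e, zero_mul, zero_mul]
  · rw [← H.co_x x j, co]
    simp only [← pj_up (H.x_mem x), h7 _ _ (pj_cen H _), of_apply, Matrix.sum_apply, Finset.sum_mul,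
      Finset.mul_sum, Matrix.smul_apply, smul_eq_mul]
    rw [sum_sw]
    refine Finset.sum_congr rfl fun c _ => Finset.sum_congr rfl fun d _ =>
      Finset.sum_congr rfl fun b _ => Finset.sum_congr rfl fun a _ => ?_
    show _ * s _ a b = _
    ring
  · refine Subgroup.mem_center_iff.2 fun x => H.inj ?_
    have e' : s g = 1 := e
    have := h7 g _ (rho_cen x)
    simp only [e', one_apply, mul_ite, mul_one, mul_zero, ite_smul, zero_smul, Finset.sum_ite_eq',
      Finset.mem_univ, if_true, ← h4 _ (rho_cen x)] at this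
    rw [map_mul, map_mul, ← mul_one (L.ρ g * _), ← rho_inv_mul (ρ := L.ρ) g, ← mul_assoc, this]
  · ext a b
    show s _ a b = _
    rw [hs, h1 b g e, mul_assoc, rho_mul_inv, mul_one, h5]

end Vale.Agent.P092LS
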