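import Vale.Agent.P092LS.Ad2

/-!
P092, group package: the package on the quotient by the centre, algebraic part.
-/

set_option autoImplicit false
set_option linter.all false

namespace Vale.Agent.P092LS

open Matrix Vale.Agent.P183CH Vale.Agent.P092GP Vale.Agent.P092GP.LD MvPolynomial

section ex

variable {R R' : Type} [CommRing R] [CommRing R'] {n : ℕ} {d d' : R} {A A' : Matrix (Fin n) (Fin n) R}

/-- One more coordinate. -/
def exm (d : R) (A : Matrix (Fin n) (Fin n) R) : Matrix (Fin (n + 1)) (Fin (n + 1)) R :=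
  of (Fin.cons (Fin.cons d 0) fun a => Fin.cons 0 (A a))

theorem exm_zz : exm d A 0 0 = d := rfl
theorem exm_zs (b : Fin n) : exm d A 0 b.succ = 0 := rfl
theorem exm_sz (a : Fin n) : exm d A a.succ 0 = 0 := rfl
theorem exm_ss (a b : Fin n) : exm d A a.succ b.succ = A a b := rfl

theorem exm_ind {P : Fin (n + 1) → Fin (n + 1) → Prop} (h1 : P 0 0) (h2 : ∀ b : Fin n, P 0 b.succ)
    (h3 : ∀ a : Fin n, P a.succ 0) (h4 : ∀ a b : Fin n, P a.succ b.succ) (a b : Fin (n + 1)) :
    P a b := Fin.cases (Fin.cases h1 h2 b) (fun a => Fin.cases (h3 a) (h4 a) b) a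

theorem exm_mul : exm (d * d') (A * A') = exm d A * exm d' A' :=
  Matrix.ext <| by
    refine exm_ind ?_ (fun b => ?_) (fun a => ?_) fun a b => ?_ <;>
      simp [mul_apply, Fin.sum_univ_succ, exm_zz, exm_zs, exm_sz, exm_ss]

theorem exm_one : exm (1 : R) (1 : Matrix (Fin n) (Fin n) R) = 1 :=
  Matrix.ext <| by
    refine exm_ind ?_ (fun b => ?_) (fun a => ?_) fun a b => ?_ <;>
      simp [exm_zz, exm_zs, exm_sz, exm_ss, one_apply, (Fin.succ_ne_zero _).symm]

theorem exm_det : (exm d A).det = d * A.det := by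
  rw [det_succ_row_zero, Fin.sum_univ_succ]
  simp only [exm_zz, exm_zs, mul_zero, zero_mul, Finset.sum_const_zero, add_zero, Fin.val_zero,
    pow_zero, one_mul, Fin.succAbove_zero]
  rfl

end ex

variable {k G G' : Type} [Field k] [Group G] [Group G'] {L : LD k G}

theorem det_unip {Q : Type} [AddCommGroup Q] {n : ℕ} {w : Fin n → Q} {F : AddSubsemigroup Q}
    {A : Matrix (Fin n) (Fin n) k} (h : Sup w F (A - 1)) (h0 : 0 ∉ F) : A.det = 1 := by
  have h1 : ∀ a, A a a = 1 := fun a => by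
    simpa [sub_eq_zero] using h a a (by rwa [sub_self])
  rw [det_apply, Finset.sum_eq_single 1 (fun s _ hs => ?_) (by simp)]
  · simp [h1]
  · by_contra c
    have c' := Finset.prod_ne_zero_iff.1 (right_ne_zero_of_smul c)
    refine h0 ?_
    rw [← sub_self (∑ a, w a)]
    nth_rw 1 [← Equiv.sum_comp s w]
    rw [← Finset.sum_sub_distrib, ← Finset.sum_subset (Finset.subset_univ s.support) fun a _ e => by
      rw [Equiv.Perm.notMem_support.1 e, sub_self]]
    refine Finset.sum_induction_nonempty _ (· ∈ F) (fun _ _ => F.add_mem)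
      (Finset.nonempty_iff_ne_empty.2 fun e => hs (Equiv.Perm.support_eq_empty_iff.1 e)) fun a e => ?_
    by_contra d
    have := h _ _ d
    rw [Matrix.sub_apply, one_apply_ne (Equiv.Perm.mem_support.1 e), sub_zero] at this
    exact c' a (Finset.mem_univ a) this

/-- The representation with determinant one. -/
@[reducible] noncomputable def RD.ex (D : RD L) : RD L where
  n := D.n + 1
  σ :=
    { toFun := fun g => exm (D.σ g⁻¹).det (D.σ g)
      map_one' := by rw [inv_one, map_one, det_one, exm_one]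
      map_mul' := fun g g' => by
        rw [_root_.mul_inv_rev, map_mul, map_mul, det_mul, mul_comm, exm_mul] }
  w := Fin.cons (-∑ a, D.w a) D.w
  e := exm 1 D.e
  l := fun j => exm 0 (D.l j)

theorem RD.ex_det (D : RD L) (g : G) : (D.ex.σ g).det = 1 := by
  show (exm _ _).det = 1
  rw [exm_det, ← det_mul, rho_inv_mul, det_one]

theorem RD.Ok.ex {D : RD L} (h : D.Ok) (H : L.Ok) : D.ex.Ok where
  ty := fun g v r => by
    refine exm_ind (n := D.n) (fun c => (c ?_).elim) (fun _ _ => rfl) (fun _ _ => rfl) (h.ty g v r)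
    obtain ⟨s, hs⟩ := exists_perm (rho_det_ne (ρ := D.σ) g)
    show -∑ a, D.w a = v (-∑ a, D.w a)
    rw [map_neg, map_sum, ← Equiv.sum_comp s]
    exact congrArg _ (Finset.sum_congr rfl fun b _ => ty_iff.1 (h.ty g v r) _ _ (hs b))
  ud := fun F g r => by
    refine exm_ind (n := D.n) (fun c => ?_) (fun b _ => ?_) (fun a _ => ?_) fun a b c => ?_
    · show (D.σ g⁻¹).det - 1 = 0
      rw [det_unip (h.ud F _ (inv_mem r)) (by rwa [sub_self] at c), sub_self]
    · show (0 : k) - (1 : Matrix _ _ k) 0 b.succ = 0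
      rw [one_apply_ne (Fin.succ_ne_zero _).symm, sub_zero]
    · show (0 : k) - (1 : Matrix _ _ k) a.succ 0 = 0
      rw [one_apply_ne (Fin.succ_ne_zero _), sub_zero]
    · show D.σ g a b - (1 : Matrix _ _ k) a.succ b.succ = 0
      simpa [one_apply] using h.ud F g r a b c
  tor := fun y t => Matrix.ext <| by
    refine exm_ind (n := D.n) ?_ (fun b => ?_) (fun a => ?_) fun a b => ?_
    · show (D.σ (L.τ y t)⁻¹).det = ((t ^ ((-∑ a, D.w a) ⬝ᵥ y) : kˣ) : k)
      rw [← H.τ_neg, h.tor, det_diagonal, ← Units.coe_prod, neg_dotProduct, ← dotProduct_neg,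
        sum_dotProduct]
      congr 1
      induction (Finset.univ : Finset (Fin D.n)) using Finset.induction_on with
      | empty => simp
      | insert j s c ih => rw [Finset.sum_insert c, Finset.prod_insert c, _root_.zpow_add, ih]
    · exact (diagonal_apply_ne _ (Fin.succ_ne_zero _).symm).symm
    · exact (diagonal_apply_ne _ (Fin.succ_ne_zero _)).symm
    · show D.σ _ a b = _
      rw [h.tor]
      simp [diagonal_apply]
  e_hom := exm_ind (n := D.n) (by rw [sub_self]; exact isWeightedHomogeneous_one _ _)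
    (fun _ => isWeightedHomogeneous_zero _ _ _) (fun _ => isWeightedHomogeneous_zero _ _ _) h.e_hom
  x_eq := fun s => Matrix.ext <| by
    refine exm_ind (n := D.n) ?_ (fun b => (map_zero (eval s)).symm) (fun a => (map_zero (eval s)).symm)
      fun a b => congrFun (congrFun (h.x_eq s) a) b
    exact (det_unip (h.ud _ _ (inv_mem (H.x_mem s))) (lt_irrefl (0 : L.R.Q))).trans (map_one (eval s)).symm
  l_hom := fun j => exm_ind (n := D.n) (fun _ => rfl) (fun _ _ => rfl) (fun _ _ => rfl) (h.l_hom j)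
  co_x := fun s j => by
    rw [← h.co_x s j]
    show ∑ a : Fin (D.n + 1), ∑ b : Fin (D.n + 1), exm 0 (D.l j) a b * exm _ (D.σ _) a b = _
    simp [Fin.sum_univ_succ, exm_zz, exm_zs, exm_sz, exm_ss]
  ker := fun g => by
    rw [← h.ker]
    show exm _ _ = 1 ↔ _
    refine ⟨fun e => Matrix.ext fun a b => ?_, fun e => ?_⟩
    · simpa [exm_ss, one_apply] using congrFun (congrFun e a.succ) b.succ
    · rw [(h.ker _).2 (inv_mem ((h.ker g).1 e)), e, det_one, exm_one]

/-- The package on the quotient. -/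
@[reducible] def RD.quo (D : RD L) (p : G →* G') (ρ : G' →* Matrix (Fin D.n) (Fin D.n) k) :
    LD k G' where
  R := L.R
  n := D.n
  N := L.N
  m := L.m
  ρ := ρ
  wt := D.w
  τ := fun h t => p (L.τ h t)
  dg := L.dg
  e := D.e
  x := fun s => p (L.x s)
  l := D.l

variable {D : RD L} {p : G →* G'} {ρ : G' →* Matrix (Fin D.n) (Fin D.n) k} (h : D.Ok) (H : L.Ok)
  (hs : Function.Surjective p) (hk : p.ker = Subgroup.center G) (hρ : ∀ g, ρ (p g) = D.σ g)
include h hρ

theorem quo_UD {F : AddSubsemigroup L.R.Q} {g : G} (a : g ∈ UD L.wt L.ρ F) : p g ∈ UD D.w ρ F := by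
  rw [mem_UD, hρ]
  exact h.ud F g a

theorem quo_rep {w : L.R.Aut} {g : G} (a : L.Rep g w) : (D.quo p ρ).Rep (p g) w := by
  rw [Rep]
  show Ty D.w w (ρ (p g))
  rw [hρ]
  exact h.ty g w a

theorem quo_Z0 {g : G} (a : g ∈ L.Z0) : p g ∈ (D.quo p ρ).Z0 :=
  rep_one.1 (quo_rep h hρ (rep_one.2 a))

include H hs hk

theorem quo_Up {g : G'} (a : g ∈ (D.quo p ρ).Up) : ∃ u ∈ L.Up, g = p u := by
  obtain ⟨g, rfl⟩ := hs g
  obtain ⟨u, b, n, w, -, c, v, d, rfl⟩ := H.bruhat0 g
  have e : p n ∈ (D.quo p ρ).Up := by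
    rw [show p n = (p u)⁻¹ * p (u * n * v) * (p v)⁻¹ by simp [mul_assoc]]
    exact mul_mem (mul_mem (inv_mem (quo_UD h hρ b)) a) (inv_mem (quo_UD h hρ d))
  replace e : Sup D.w (dPos L.R.r : Set L.R.Q) (D.σ n - 1) := by
    rw [← hρ]
    exact e
  have e0 : ∀ x y, D.w x = D.w y → (D.σ n - 1) x y = 0 := fun x y f =>
    e x y (by rw [f, sub_self]; exact lt_irrefl (0 : L.R.Q))
  have e1 : D.σ n = 1 := by
    ext x y
    by_contra f
    have f1 : D.σ n y y ≠ 0 := by
      rw [show D.σ n y y = 1 by simpa [sub_eq_zero] using e0 y y rfl]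
      exact one_ne_zero
    refine f (sub_eq_zero.1 (e0 x y ?_))
    by_cases q : x = y
    · rw [q]
    · rw [one_apply_ne q] at f
      rw [ty_iff.1 (h.ty n w c) _ _ f, ← ty_iff.1 (h.ty n w c) _ _ f1]
  refine ⟨u * v, mul_mem b d, ?_⟩
  rw [map_mul, map_mul, show p n = 1 from hk.ge ((h.ker n).1 e1), mul_one, map_mul]

theorem quo_Gp : (D.quo p ρ).Gp = L.Gp.map p := by
  refine le_antisymm (sup_le (fun g a => ?_) fun g a => ?_) ?_
  · obtain ⟨u, b, rfl⟩ := quo_Up h H hs hk hρ a
    exact ⟨u, Up_le_Gp b, rfl⟩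
  · obtain ⟨w, c, n, d, e⟩ := H.exists_n0
    obtain ⟨u, b, f⟩ := quo_Up h H hs hk hρ ((quo_rep h hρ e).conj_UD (F' := dPos _) a
      fun x q => map_pos_of_neg H.root c q)
    rw [H.GJ_univ] at d
    exact ⟨n⁻¹ * u * n, mul_mem (mul_mem (inv_mem d) (Up_le_Gp b)) d, by
      rw [map_mul, map_mul, map_inv, ← f]; group⟩
  · rw [Gp, Subgroup.map_sup]
    refine sup_le_sup ?_ ?_ <;> rintro _ ⟨u, a, rfl⟩ <;> exact quo_UD h hρ a

theorem quo_ok (hd : ∀ g, (D.σ g).det = 1) : (D.quo p ρ).Ok where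
  root := H.root
  npos := H.npos
  inj := (injective_iff_map_eq_one ρ).2 fun g e => by
    obtain ⟨g, rfl⟩ := hs g
    exact hk.ge ((h.ker g).1 ((hρ g).symm.trans e))
  det := fun g => by
    obtain ⟨g, rfl⟩ := hs g
    exact (congrArg det (hρ g)).trans (hd g)
  tor := fun y t => (hρ _).trans (h.tor y t)
  dg_root := H.dg_root
  dg_simple := H.dg_simple
  e_hom := h.e_hom
  x_eq := fun s => (hρ _).trans (h.x_eq s)
  x_zero := (congrArg p H.x_zero).trans p.map_one
  x_onto := fun g a => by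
    obtain ⟨u, b, rfl⟩ := quo_Up h H hs hk hρ a
    obtain ⟨s, rfl⟩ := H.x_onto u b
    exact ⟨s, rfl⟩
  l_hom := h.l_hom
  co_x := fun s j => by
    show pa (D.l j) (ρ (p _)) = _
    rw [hρ]
    exact h.co_x s j
  weyl := fun i g a b => by
    obtain ⟨u, c, rfl⟩ := quo_Up h H hs hk hρ (X_le_Up (L := D.quo p ρ) (H.α_pos i) a)
    obtain ⟨s, rfl⟩ := H.x_onto u c
    have d : L.x s ∈ L.X (L.R.α i) := H.x_mem_UD fun j e => by
      by_contra f
      have := pa_eq_zero (h.l_hom j) (show Sup D.w _ (D.σ (L.x s) - 1) by rw [← hρ]; exact a) f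
      rw [← paL_apply, map_sub, paL_apply, paL_apply, pa_eq_zero (h.l_hom j)
        (Sup.one (Set.mem_singleton 0)) (H.dg_pos j).ne', sub_zero] at this
      exact e ((h.co_x s j).symm.trans this)
    obtain ⟨v, e, v', e', f⟩ := H.weyl' d fun q => b (q ▸ p.map_one)
    refine ⟨p v, quo_UD h hρ e, p v', quo_UD h hρ e', ?_⟩
    rw [← map_mul, ← map_mul]
    refine Ty.congr (quo_rep h hρ f) fun b => ?_
    simp [RS.sE, H.root.diag, RS.sL_apply]
  gen := by
    rw [quo_Gp h H hs hk hρ, eq_top_iff]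
    intro g _
    obtain ⟨g, rfl⟩ := hs g
    obtain ⟨x, a, z, b, rfl⟩ := H.exists_Gp g
    rw [map_mul]
    exact mul_mem (Subgroup.mem_sup_right ⟨x, a, rfl⟩) (Subgroup.mem_sup_left (quo_Z0 h hρ b))

omit h hρ hs in
/-- An element which centralises `Gp` modulo the centre centralises `Gp`. -/
theorem cent_lift {g : G} (a : ∀ u ∈ L.Gp, p g * p u = p u * p g) : ∀ u ∈ L.Gp, g * u = u * g := by
  have h1 : ∀ g, (∀ u ∈ L.Gp, p g * p u = p u * p g) → ∀ u ∈ L.Up, g * u = u * g := fun g a => by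
    have c : ∀ u ∈ L.Up, u⁻¹ * (g * u * g⁻¹) ∈ L.Z0 := fun u b => center_le H (hk.le (by
      simp [MonoidHom.mem_ker, a u (Up_le_Gp b)]))
    have d : g ∈ L.B := H.mem_B_of_conj fun u b => by
      simpa using mul_mem (Up_le_B b) (Z0_le_B (c u b))
    intro u b
    have := H.eq_one_of_Up (mul_mem (inv_mem b) (conj_Up d b)) (Z0_le_Bm (c u b))
    rw [inv_mul_eq_one, eq_mul_inv_iff_mul_eq] at this
    exact this.symm
  obtain ⟨w, c, n, d, e⟩ := H.exists_n0
  rw [H.GJ_univ] at d
  have h2 := h1 (n * g * n⁻¹) fun u b => by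
    have := a _ (mul_mem (mul_mem (inv_mem d) b) d)
    simp only [map_mul, map_inv] at this ⊢
    calc _ = p n * (p g * ((p n)⁻¹ * p u * p n)) * (p n)⁻¹ := by group
      _ = _ := by rw [this]; group
  have h3 : L.Gp ≤ Subgroup.centralizer {g} := sup_le
    (fun u b => Subgroup.mem_centralizer_singleton_iff.2 (h1 g a u b).symm) fun u b =>
      Subgroup.mem_centralizer_singleton_iff.2 (by
        have := h2 _ (H.lg_Um e c b)
        calc _ = n⁻¹ * (n * u * n⁻¹ * (n * g * n⁻¹)) * n := by group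
          _ = _ := by rw [← this]; group)
  exact fun u b => (Subgroup.mem_centralizer_singleton_iff.1 (h3 b)).symm

end Vale.Agent.P092LS
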