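import Vale.Agent.P092GP.Bru
import Vale.Agent.P092GP.DefsT

/-!
P092, group package: restriction of the package to a closed subgroup over `Gp`, and transport.
-/

set_option autoImplicit false
set_option linter.all false

namespace Vale.Agent.P092GP

open Matrix Vale.Agent.P183CH

section sc

variable {k : Type} [Field k] {r n M : ℕ} {wt : Fin n → Fin r → ℤ} {G G' : Type} [Group G]
  [Group G'] {ρ : G →* Matrix (Fin n) (Fin n) k} {f : G' →* G} {μ : Fin r → ℤ}

theorem sup_sc {D D' : Set (Fin r → ℤ)} (h : ∀ μ, M • μ ∈ D ↔ μ ∈ D')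
    {X : Matrix (Fin n) (Fin n) k} : Sup (fun a => M • wt a) D X ↔ Sup wt D' X := by
  simp only [Sup, ← smul_sub, h]

theorem PD_sc {E E' : AddSubmonoid (Fin r → ℤ)} (h : ∀ μ, M • μ ∈ E ↔ μ ∈ E') :
    PD (fun a => M • wt a) (ρ.comp f) E = (PD wt ρ E').comap f :=
  Subgroup.ext fun _ => sup_sc h

theorem UD_sc {E E' : AddSubsemigroup (Fin r → ℤ)} (h : ∀ μ, M • μ ∈ E ↔ μ ∈ E') :
    UD (fun a => M • wt a) (ρ.comp f) E = (UD wt ρ E').comap f :=
  Subgroup.ext fun _ => sup_sc h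

theorem sc_nn (hM : 0 < M) : 0 ≤ M • μ ↔ 0 ≤ μ :=
  forall_congr' fun i => by
    simp only [Pi.smul_apply, Pi.zero_apply, nsmul_eq_mul]
    exact mul_nonneg_iff_of_pos_left (by exact_mod_cast hM)

theorem sc_np (hM : 0 < M) : M • μ ≤ 0 ↔ μ ≤ 0 := by
  rw [← neg_nonneg, ← smul_neg, sc_nn hM, neg_nonneg]

theorem sc_ray (hM : 0 < M) {γ : Fin r → ℤ} {i : Fin r} (h1 : γ i = 1 ∨ γ i = -1) :
    M • μ ∈ dRay γ ↔ μ ∈ dRay γ := by
  have hM' : (0 : ℤ) < M := by exact_mod_cast hM
  constructor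
  · rintro ⟨c, hc, e⟩
    have e1 : (M : ℤ) * μ i = c * γ i := by simpa using congrFun e i
    have e2 : (c : ℤ) = M * (μ i * γ i) := by
      rcases h1 with h | h <;> rw [h] at e1 ⊢ <;> linarith
    have e3 : 0 < μ i * γ i := by
      have : (0 : ℤ) < c := by exact_mod_cast hc
      rw [e2] at this
      exact (mul_pos_iff_of_pos_left hM').1 this
    refine ⟨(μ i * γ i).toNat, by omega, funext fun j => mul_left_cancel₀ hM'.ne' ?_⟩
    have e4 : (M : ℤ) * μ j = c * γ j := by simpa using congrFun e j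
    rw [e4, e2, Pi.smul_apply, nsmul_eq_mul, Int.toNat_of_nonneg e3.le, mul_assoc]
  · rintro ⟨c, hc, rfl⟩
    exact ⟨M * c, Nat.mul_pos hM hc, (mul_smul M c γ).symm⟩

end sc

namespace LD

section alg

variable {k G G' : Type} [Field k] [Group G] [Group G'] (L : LD k G) (f : G' →* G) (M : ℕ)

/-- The package on the source of `f`; the weights are multiplied by `M`. -/
@[reducible] noncomputable def res : LD k G' where
  R := L.R
  n := L.n
  N := M * L.N
  m := L.m
  ρ := L.ρ.comp f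
  wt := fun a => M • L.wt a
  τ := fun h t => Function.invFun f (L.τ (M • h) t)
  dg := fun j => M • L.dg j
  e := L.e
  x := fun s => Function.invFun f (L.x s)
  l := L.l

variable {L f M} (hM : 0 < M)
include hM

theorem res_P (h : Fin L.R.r → ℝ) : (L.res f M).P h = (L.P h).comap f :=
  PD_sc fun μ => by
    rw [mem_dGe, mem_dGe, pr_nsmul]
    exact mul_nonneg_iff_of_pos_left (by exact_mod_cast hM)

theorem res_U (h : Fin L.R.r → ℝ) : (L.res f M).U h = (L.U h).comap f :=
  UD_sc fun μ => by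
    rw [mem_dGt, mem_dGt, pr_nsmul]
    exact mul_pos_iff_of_pos_left (by exact_mod_cast hM)

theorem res_Z (h : Fin L.R.r → ℝ) : (L.res f M).Z h = (L.Z h).comap f :=
  PD_sc fun μ => by
    rw [mem_dEq, mem_dEq, pr_nsmul]
    exact mul_eq_zero_iff_left (by exact_mod_cast hM.ne')

theorem res_B : (L.res f M).B = L.B.comap f := PD_sc fun _ => sc_nn hM

theorem res_Bm : (L.res f M).Bm = L.Bm.comap f := PD_sc fun _ => sc_np hM

theorem res_Up : (L.res f M).Up = L.Up.comap f :=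
  UD_sc fun _ => by rw [mem_dPos, mem_dPos, lt_iff_le_not_ge, lt_iff_le_not_ge, sc_nn hM, sc_np hM]

theorem res_Um : (L.res f M).Um = L.Um.comap f :=
  UD_sc fun _ => by rw [mem_dNeg, mem_dNeg, lt_iff_le_not_ge, lt_iff_le_not_ge, sc_nn hM, sc_np hM]

theorem res_Z0 : (L.res f M).Z0 = L.Z0.comap f :=
  PD_sc fun _ => by
    rw [AddSubmonoid.mem_bot, AddSubmonoid.mem_bot, le_antisymm_iff, le_antisymm_iff, sc_nn hM,
      sc_np hM]

theorem res_X {γ : L.R.Q} {i : Fin L.R.r} (h1 : γ i = 1 ∨ γ i = -1) :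
    (L.res f M).X γ = (L.X γ).comap f := UD_sc fun _ => sc_ray hM h1

theorem res_rep {g : G'} {w : L.R.Aut} : (L.res f M).Rep g w ↔ L.Rep (f g) w := by
  refine forall₂_congr fun a b => imp_congr_left (not_congr ?_)
  show M • L.wt a = w (M • L.wt b) ↔ _
  rw [map_nsmul, ← sub_eq_zero, ← smul_sub, le_antisymm_iff, sc_nn hM, sc_np hM, ← le_antisymm_iff,
    sub_eq_zero]

theorem res_Gp (hf : Function.Injective f) (hG : L.Gp ≤ f.range) :
    (L.res f M).Gp = L.Gp.comap f := by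
  rw [Gp, res_Up hM, res_Um hM, Gp,
    Subgroup.comap_sup_eq_of_le_range f (Up_le_Gp.trans hG) (Um_le_Gp.trans hG)]

omit hM in
/-- A multiple of the torus lies in `Gp`. -/
theorem Ok.τ_mem_Gp (H : L.Ok) (y : L.R.Q) (t : kˣ) : L.τ (L.R.A.det.natAbs • y) t ∈ L.Gp := by
  let T : AddSubgroup L.R.Q :=
    { carrier := {y | L.τ y t ∈ L.Gp}
      zero_mem' := by show L.τ 0 t ∈ L.Gp; rw [H.τ_zero]; exact one_mem _
      add_mem' := fun {a b} c d => by show L.τ (a + b) t ∈ L.Gp; rw [H.τ_add]; exact mul_mem c d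
      neg_mem' := fun {a} c => by show L.τ (-a) t ∈ L.Gp; rw [H.τ_neg]; exact inv_mem c }
  have h1 : ∀ i, (fun j => L.R.A j i) ∈ T := fun i => by
    have a := H.rep_τ (H.rep_nn i) (L.R.α i) t
    have b : L.nn i ∈ L.Gp := H.GJ_univ ▸ H.nn_mem (Set.mem_univ i)
    have c : (fun j => L.R.A j i) = L.R.α i + -fun j => L.R.sE i (L.R.α j) ⬝ᵥ L.R.α i := by
      funext j
      simp [RS.sE, H.root.diag, RS.sL_apply, RS.s, RS.pr, RS.α, Pi.single_apply, eq_comm]
    show L.τ (fun j => L.R.A j i) t ∈ L.Gp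
    rw [c, H.τ_add, H.τ_neg, ← a, show L.τ (L.R.α i) t * ((L.nn i)⁻¹ * L.τ (L.R.α i) t * L.nn i)⁻¹ =
      L.τ (L.R.α i) t * (L.nn i)⁻¹ * (L.τ (L.R.α i) t)⁻¹ * L.nn i by group]
    exact mul_mem (H.normal_Gp.conj_mem _ (inv_mem b) _) b
  have h2 : L.R.A.det • y ∈ T := by
    have : L.R.A.det • y = ∑ i, (L.R.A.adjugate *ᵥ y) i • fun j => L.R.A j i := by
      rw [← one_mulVec y, ← smul_mulVec, ← mul_adjugate, ← mulVec_mulVec, one_mulVec]
      funext j
      simp [mulVec, dotProduct, mul_comm]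
    rw [this]
    exact T.sum_mem fun i _ => T.zsmul_mem (h1 i) _
  show _ ∈ T
  rw [← natCast_zsmul, Int.natCast_natAbs]
  rcases abs_choice L.R.A.det with h | h <;> rw [h]
  · exact h2
  · rw [neg_smul]; exact neg_mem h2

variable (H : L.Ok) (hf : Function.Injective f) (hG : L.Gp ≤ f.range)
  (hτ : ∀ y t, L.τ (M • y) t ∈ f.range)
include H hf hG hτ

theorem res_ok : (L.res f M).Ok where
  root := H.root
  npos := Nat.mul_pos hM H.npos
  inj := H.inj.comp hf
  det := fun g => H.det _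
  tor := fun h t => by
    show L.ρ (f (Function.invFun f _)) = _
    rw [Function.invFun_eq (hτ h t), H.tor]
    simp only [smul_dotProduct, dotProduct_smul]
  dg_root := fun j => by
    obtain ⟨γ, a, b, c, d, e⟩ := H.dg_root j
    exact ⟨γ, a, b, c, d, show M • L.dg j = (M * L.N * c) • γ by rw [e, mul_assoc, mul_smul M]⟩
  dg_simple := fun i => by
    obtain ⟨j, e⟩ := H.dg_simple i
    exact ⟨j, show M • L.dg j = (M * L.N) • L.R.α i by rw [e, mul_smul]⟩
  e_hom := fun a b d hd => by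
    show _ = M • L.wt a - M • L.wt b
    rw [← smul_sub, ← H.e_hom a b hd, Finsupp.weight_apply, Finsupp.weight_apply, Finsupp.sum,
      Finsupp.sum, Finset.smul_sum]
    exact Finset.sum_congr rfl fun i _ => smul_comm _ _ _
  x_eq := fun s => by
    show L.ρ (f (Function.invFun f _)) = _
    rw [Function.invFun_eq (hG (Up_le_Gp (H.x_mem s))), H.x_eq]
  x_zero := hf (by
    show f (Function.invFun f _) = _
    rw [Function.invFun_eq (hG (Up_le_Gp (H.x_mem _))), map_one]
    exact H.x_zero)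
  x_onto := fun g hg => by
    rw [res_Up hM] at hg
    obtain ⟨s, e⟩ := H.x_onto _ hg
    exact ⟨s, hf (e.trans (Function.invFun_eq (hG (Up_le_Gp (H.x_mem s)))).symm)⟩
  l_hom := fun j a b c => H.l_hom j a b fun d => c (show M • L.wt a - M • L.wt b = M • L.dg j by
    rw [← smul_sub, show L.wt a - L.wt b = L.dg j from d])
  co_x := fun s j => by
    show L.co j (L.ρ (f (Function.invFun f _))) = _
    rw [Function.invFun_eq (hG (Up_le_Gp (H.x_mem s))), H.co_x]
  weyl := fun i u a b => by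
    have p : L.R.α i i = 1 := by simp [RS.α]
    have q : (-L.R.α i) i = -1 := by simp [RS.α]
    have n : -L.R.α i < 0 := neg_lt_zero.2 (H.α_pos i)
    replace a : f u ∈ L.X (L.R.α i) := (res_X (L := L) hM (Or.inl p)).le a
    obtain ⟨v, c, v', d, e⟩ := H.weyl' a fun e => b (hf (e.trans f.map_one.symm))
    obtain ⟨v, rfl⟩ := hG (Um_le_Gp (X_le_Um n c))
    obtain ⟨v', rfl⟩ := hG (Um_le_Gp (X_le_Um n d))
    refine ⟨v, (res_X (L := L) hM (Or.inr q)).ge c, v', (res_X (L := L) hM (Or.inr q)).ge d, ?_⟩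
    rw [← map_mul, ← map_mul, ← res_rep hM] at e
    refine Ty.congr e fun b => ?_
    simp [RS.sE, H.root.diag, RS.sL_apply]
  gen := by
    rw [res_Z0 hM, res_Gp hM hf hG, eq_top_iff]
    intro g _
    obtain ⟨x, a, z, b, e⟩ := H.exists_Gp (f g)
    obtain ⟨x, rfl⟩ := hG a
    rw [show g = x * (x⁻¹ * g) by group]
    refine mul_mem (Subgroup.mem_sup_right a) (Subgroup.mem_sup_left ?_)
    rw [Subgroup.mem_comap, map_mul, map_inv, e, inv_mul_cancel_left]
    exact b

end alg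

end LD

end Vale.Agent.P092GP
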